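import Vale.Agent.P358.Defs

/-!
# P358: elementary properties of the channel and of its powers
-/

namespace VAgent.P358

open Matrix
open scoped ComplexOrder

variable {γ ν : ℝ} {n : ℕ}

/-- Real Kraus operators of the channel. -/
noncomputable def kraus (γ ν : ℝ) (r : Fin 4) : Matrix (Fin 2) (Fin 2) ℝ :=
  ![Real.sqrt (1 - ν) • !![1, 0; 0, Real.sqrt (1 - γ)],
    Real.sqrt (1 - ν) • !![0, Real.sqrt γ; 0, 0],
    Real.sqrt ν • !![Real.sqrt (1 - γ), 0; 0, 1],
    Real.sqrt ν • !![0, 0; Real.sqrt γ, 0]] r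

theorem kern_eq_sum (hγ : γ ∈ Set.Icc (0:ℝ) 1) (hν : ν ∈ Set.Icc (0:ℝ) 1) (x y u v : Fin 2) :
    kern γ ν x y u v = ∑ r, (kraus γ ν r x u : ℂ) * (kraus γ ν r y v : ℂ) := by
  have e1 : Real.sqrt (1 - ν) * Real.sqrt (1 - ν) = 1 - ν :=
    Real.mul_self_sqrt (sub_nonneg.2 hν.2)
  have e2 : Real.sqrt ν * Real.sqrt ν = ν := Real.mul_self_sqrt hν.1
  have e3 : Real.sqrt γ * Real.sqrt γ = γ := Real.mul_self_sqrt hγ.1
  have e4 : Real.sqrt (1 - γ) * Real.sqrt (1 - γ) = 1 - γ :=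
    Real.mul_self_sqrt (sub_nonneg.2 hγ.2)
  rw [Fin.sum_univ_four]
  fin_cases x <;> fin_cases y <;> fin_cases u <;> fin_cases v <;>
    simp [kern, kraus, ← Complex.ofReal_mul, ← Complex.ofReal_add] <;> norm_cast <;>
    first
    | linear_combination -e1 - Real.sqrt ν * Real.sqrt ν * e4 - (1 - γ) * e2
    | linear_combination -(Real.sqrt γ * Real.sqrt γ) * e1 - (1 - ν) * e3
    | linear_combination -(Real.sqrt γ * Real.sqrt γ) * e2 - ν * e3
    | linear_combination -(Real.sqrt (1 - γ) * Real.sqrt (1 - γ)) * e1 - (1 - ν) * e4 - e2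
    | linear_combination -Real.sqrt (1 - γ) * e1 - Real.sqrt (1 - γ) * e2

/-- Kraus operators of the power. -/
noncomputable def krausPow (γ ν : ℝ) (r : Fin n → Fin 4) :
    Matrix (Fin n → Fin 2) (Fin n → Fin 2) ℂ :=
  fun x u => ((∏ i, kraus γ ν (r i) (x i) (u i) : ℝ) : ℂ)

theorem prod_kern_eq_sum (hγ : γ ∈ Set.Icc (0:ℝ) 1) (hν : ν ∈ Set.Icc (0:ℝ) 1)
    (x y u v : Fin n → Fin 2) :
    ∏ i, kern γ ν (x i) (y i) (u i) (v i)
      = ∑ r, krausPow γ ν r x u * krausPow γ ν r y v := by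
  simp only [kern_eq_sum hγ hν, krausPow, Fintype.prod_sum, Complex.ofReal_prod,
    Finset.prod_mul_distrib]

/-- The input seen as an operator on the first qubit times the others. -/
def split (ρ : Matrix (Fin (n + 1) → Fin 2) (Fin (n + 1) → Fin 2) ℂ) (a b : Fin 2) :
    Matrix (Fin n → Fin 2) (Fin n → Fin 2) ℂ :=
  fun x y => ρ (Fin.cons a x) (Fin.cons b y)

/-- The channel applied to all but the first qubit. -/
noncomputable def stepOp (γ ν : ℝ) (ρ : Matrix (Fin (n + 1) → Fin 2) (Fin (n + 1) → Fin 2) ℂ) :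
    Matrix (Fin 2 × (Fin n → Fin 2)) (Fin 2 × (Fin n → Fin 2)) ℂ :=
  fun p p' => gadcPow γ ν n (split ρ p.1 p'.1) p.2 p'.2

/-- The identity on the first qubit tensor a Kraus operator. -/
noncomputable def krausStep (γ ν : ℝ) (r : Fin n → Fin 4) :
    Matrix (Fin 2 × (Fin n → Fin 2)) (Fin 2 × (Fin n → Fin 2)) ℂ :=
  fun p p' => if p.1 = p'.1 then krausPow γ ν r p.2 p'.2 else 0

theorem gadcPow_eq_kraus (hγ : γ ∈ Set.Icc (0:ℝ) 1) (hν : ν ∈ Set.Icc (0:ℝ) 1)
    (ρ : Matrix (Fin n → Fin 2) (Fin n → Fin 2) ℂ) :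
    gadcPow γ ν n ρ = ∑ r, krausPow γ ν r * ρ * (krausPow γ ν r)ᴴ := by
  ext x y
  simp only [gadcPow, prod_kern_eq_sum hγ hν, Matrix.sum_apply, Matrix.mul_apply, Finset.mul_sum,
    Finset.sum_mul]
  rw [Finset.sum_comm_cycle]
  refine Finset.sum_congr rfl fun r _ => ?_
  rw [Finset.sum_comm]
  refine Finset.sum_congr rfl fun v _ => Finset.sum_congr rfl fun u _ => ?_
  simp only [Matrix.conjTranspose_apply, krausPow, Complex.star_def, Complex.conj_ofReal]
  ring

theorem gadcPow_posSemidef (hγ : γ ∈ Set.Icc (0:ℝ) 1) (hν : ν ∈ Set.Icc (0:ℝ) 1)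
    {ρ : Matrix (Fin n → Fin 2) (Fin n → Fin 2) ℂ} (hρ : ρ.PosSemidef) :
    (gadcPow γ ν n ρ).PosSemidef := by
  rw [gadcPow_eq_kraus hγ hν]
  exact Matrix.posSemidef_sum _ fun r _ => hρ.mul_mul_conjTranspose_same _

theorem stepOp_posSemidef (hγ : γ ∈ Set.Icc (0:ℝ) 1) (hν : ν ∈ Set.Icc (0:ℝ) 1)
    {ρ : Matrix (Fin (n + 1) → Fin 2) (Fin (n + 1) → Fin 2) ℂ} (hρ : ρ.PosSemidef) :
    (stepOp γ ν ρ).PosSemidef := by
  have h : stepOp γ ν ρ = ∑ r, krausStep γ ν r
      * ρ.submatrix (fun p : Fin 2 × (Fin n → Fin 2) => (Fin.cons p.1 p.2 : Fin (n + 1) → Fin 2))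
          (fun p => Fin.cons p.1 p.2)
      * (krausStep γ ν r)ᴴ := by
    ext ⟨a, x⟩ ⟨b, y⟩
    have hk : stepOp γ ν ρ (a, x) (b, y)
        = (∑ r, krausPow γ ν r * split ρ a b * (krausPow γ ν r)ᴴ :
            Matrix (Fin n → Fin 2) (Fin n → Fin 2) ℂ) x y := by
      rw [← gadcPow_eq_kraus hγ hν]; rfl
    rw [hk]
    simp only [Matrix.sum_apply, Matrix.mul_apply, Fintype.sum_prod_type, krausStep,
      Matrix.conjTranspose_apply, Matrix.submatrix_apply, split, ite_mul, zero_mul, mul_ite,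
      apply_ite star, star_zero, mul_zero, Finset.sum_ite_irrel, Finset.sum_const_zero,
      Finset.sum_ite_eq, Finset.mem_univ, if_true]
  rw [h]
  exact Matrix.posSemidef_sum _ fun r _ => (hρ.submatrix _).mul_mul_conjTranspose_same _

theorem gadcPow_succ_apply (ρ : Matrix (Fin (n + 1) → Fin 2) (Fin (n + 1) → Fin 2) ℂ)
    (a b : Fin 2) (x y : Fin n → Fin 2) :
    gadcPow γ ν (n + 1) ρ (Fin.cons a x) (Fin.cons b y)
      = gadcLeft γ ν (stepOp γ ν ρ) (a, x) (b, y) := by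
  simp only [gadcPow, gadcLeft, stepOp, split, Finset.sum_mul]
  rw [← Equiv.sum_comp (Fin.consEquiv fun _ : Fin (n + 1) => Fin 2), Fintype.sum_prod_type]
  refine Finset.sum_congr rfl fun a' _ => ?_
  conv_rhs => rw [Finset.sum_comm]
  refine Finset.sum_congr rfl fun u _ => ?_
  rw [← Equiv.sum_comp (Fin.consEquiv fun _ : Fin (n + 1) => Fin 2), Fintype.sum_prod_type]
  refine Finset.sum_congr rfl fun b' _ => Finset.sum_congr rfl fun v _ => ?_
  simp [Fin.consEquiv, Fin.prod_univ_succ]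
  ring

theorem sum_kern_diag (u v : Fin 2) :
    ∑ a, kern γ ν a a u v = if u = v then 1 else 0 := by
  fin_cases u <;> fin_cases v <;> simp [kern, Fin.sum_univ_two]; ring

theorem sum_prod_kern_diag (u v : Fin n → Fin 2) :
    ∑ x : Fin n → Fin 2, ∏ i, kern γ ν (x i) (x i) (u i) (v i) = if u = v then 1 else 0 := by
  rw [← Fintype.prod_sum (fun i a => kern γ ν a a (u i) (v i))]
  simp only [sum_kern_diag, Fintype.prod_boole, funext_iff]
  split_ifs <;> simp_all

theorem trace_gadcPow (ρ : Matrix (Fin n → Fin 2) (Fin n → Fin 2) ℂ) :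
    (gadcPow γ ν n ρ).trace = ρ.trace := by
  simp only [Matrix.trace, Matrix.diag, gadcPow]
  rw [Finset.sum_comm]
  refine Finset.sum_congr rfl fun u _ => ?_
  rw [Finset.sum_comm]
  simp only [← Finset.mul_sum, sum_prod_kern_diag, mul_ite, mul_one, mul_zero, Finset.sum_ite_eq,
    Finset.mem_univ, if_true]

/-- Population of the excited level of qubit `i`. -/
noncomputable def pop (ρ : Matrix (Fin n → Fin 2) (Fin n → Fin 2) ℂ) (i : Fin n) : ℝ :=
  ∑ x, if x i = 1 then (ρ x x).re else 0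

theorem pop_nonneg {ρ : Matrix (Fin n → Fin 2) (Fin n → Fin 2) ℂ} (hρ : ρ.PosSemidef)
    (i : Fin n) : 0 ≤ pop ρ i := by
  refine Finset.sum_nonneg fun x _ => ?_
  split_ifs
  · exact (Complex.nonneg_iff.1 (hρ.diag_nonneg (i := x))).1
  · exact le_rfl

theorem pop_le_trace {ρ : Matrix (Fin n → Fin 2) (Fin n → Fin 2) ℂ} (hρ : ρ.PosSemidef)
    (i : Fin n) : pop ρ i ≤ ρ.trace.re := by
  simp only [pop, Matrix.trace, Matrix.diag, Complex.re_sum]
  refine Finset.sum_le_sum fun x _ => ?_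
  split_ifs
  · exact le_rfl
  · exact (Complex.nonneg_iff.1 (hρ.diag_nonneg (i := x))).1

theorem pop_gadcPow (ρ : Matrix (Fin n → Fin 2) (Fin n → Fin 2) ℂ) (i : Fin n) :
    pop (gadcPow γ ν n ρ) i = γ * ν * ρ.trace.re + (1 - γ) * pop ρ i := by
  have hsum : ∀ u v : Fin n → Fin 2,
      ∑ x : Fin n → Fin 2, (if x i = 1 then ∏ j, kern γ ν (x j) (x j) (u j) (v j) else 0)
        = if u = v then ((γ * ν + (1 - γ) * (if u i = 1 then 1 else 0) : ℝ) : ℂ) else 0 := by
    intro u v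
    have hfac : ∀ x : Fin n → Fin 2,
        (if x i = 1 then ∏ j, kern γ ν (x j) (x j) (u j) (v j) else 0)
          = ∏ j, kern γ ν (x j) (x j) (u j) (v j) * (if j = i → x j = 1 then 1 else 0) := by
      intro x
      rw [Finset.prod_mul_distrib]
      by_cases hx : x i = 1
      · have h1 : ∀ j, (if j = i → x j = 1 then (1 : ℂ) else 0) = 1 := fun j =>
          if_pos fun hj => hj ▸ hx
        simp only [h1, Finset.prod_const_one, mul_one, if_pos hx]
      · have h0 : ∏ j, (if j = i → x j = 1 then (1 : ℂ) else 0) = 0 :=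
          Finset.prod_eq_zero (Finset.mem_univ i) (if_neg fun h => hx (h rfl))
        rw [if_neg hx, h0, mul_zero]
    simp only [hfac]
    rw [← Fintype.prod_sum (fun j a => kern γ ν a a (u j) (v j) * (if j = i → a = 1 then 1 else 0))]
    have hterm : ∀ j, ∑ a, kern γ ν a a (u j) (v j) * (if j = i → a = 1 then 1 else 0)
        = (if u j = v j then 1 else 0) *
          (if j = i then ((γ * ν + (1 - γ) * (if u i = 1 then 1 else 0) : ℝ) : ℂ) else 1) := by
      intro j
      rcases eq_or_ne j i with rfl | hj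
      · simp only [if_true, forall_const, Fin.sum_univ_two]
        generalize u j = a
        generalize v j = b
        fin_cases a <;> fin_cases b <;> simp [kern]; ring
      · have h2 := sum_kern_diag (γ := γ) (ν := ν) (u j) (v j)
        rw [Fin.sum_univ_two] at h2
        simp [hj, h2]
    simp only [hterm]
    rw [Finset.prod_mul_distrib, Fintype.prod_boole, Fintype.prod_ite_eq']
    split_ifs <;> simp_all [funext_iff]
  have h : ((∑ x : Fin n → Fin 2, if x i = 1 then gadcPow γ ν n ρ x x else 0 : ℂ))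
      = ∑ u, ρ u u * ((γ * ν + (1 - γ) * (if u i = 1 then 1 else 0) : ℝ) : ℂ) := by
    simp only [gadcPow]
    calc _ = ∑ u, ∑ v, ρ u v * ∑ x : Fin n → Fin 2,
          (if x i = 1 then ∏ j, kern γ ν (x j) (x j) (u j) (v j) else 0) := by
          simp only [Finset.mul_sum, mul_ite, mul_zero]
          rw [Finset.sum_comm_cycle]
          refine Finset.sum_congr rfl fun x _ => ?_
          split_ifs <;> simp
      _ = _ := by
          simp only [hsum, mul_ite, mul_zero, Finset.sum_ite_eq, Finset.mem_univ, if_true]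
  have h' := congrArg Complex.re h
  simp only [Complex.re_sum, apply_ite Complex.re, Complex.zero_re, Complex.mul_re,
    Complex.ofReal_re, Complex.ofReal_im, mul_zero, sub_zero] at h'
  rw [pop, h', Matrix.trace, Complex.re_sum, Finset.mul_sum, pop, Finset.mul_sum,
    ← Finset.sum_add_distrib]
  refine Finset.sum_congr rfl fun u _ => ?_
  simp only [Matrix.diag]
  split_ifs <;> ring

theorem trace_split (ρ : Matrix (Fin (n + 1) → Fin 2) (Fin (n + 1) → Fin 2) ℂ) :
    ρ.trace.re = (split ρ 0 0).trace.re + (split ρ 1 1).trace.re := by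
  simp only [Matrix.trace, Matrix.diag, split, Complex.re_sum]
  rw [← Equiv.sum_comp (Fin.consEquiv fun _ : Fin (n + 1) => Fin 2), Fintype.sum_prod_type,
    Fin.sum_univ_two]
  rfl

theorem pop_zero (ρ : Matrix (Fin (n + 1) → Fin 2) (Fin (n + 1) → Fin 2) ℂ) :
    pop ρ 0 = (split ρ 1 1).trace.re := by
  simp only [pop, Matrix.trace, Matrix.diag, split, Complex.re_sum]
  rw [← Equiv.sum_comp (Fin.consEquiv fun _ : Fin (n + 1) => Fin 2), Fintype.sum_prod_type,
    Fin.sum_univ_two]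
  simp [Fin.consEquiv]

theorem pop_succ (ρ : Matrix (Fin (n + 1) → Fin 2) (Fin (n + 1) → Fin 2) ℂ) (i : Fin n) :
    pop ρ i.succ = pop (split ρ 0 0) i + pop (split ρ 1 1) i := by
  simp only [pop, split]
  rw [← Equiv.sum_comp (Fin.consEquiv fun _ : Fin (n + 1) => Fin 2), Fintype.sum_prod_type,
    Fin.sum_univ_two]
  simp [Fin.consEquiv]

theorem split_posSemidef {ρ : Matrix (Fin (n + 1) → Fin 2) (Fin (n + 1) → Fin 2) ℂ}
    (hρ : ρ.PosSemidef) (a : Fin 2) : (split ρ a a).PosSemidef :=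
  hρ.submatrix (fun x : Fin n → Fin 2 => (Fin.cons a x : Fin (n + 1) → Fin 2))

theorem gadcPow_sum {J : Type*} (s : Finset J) (w : J → ℂ)
    (ρ : J → Matrix (Fin n → Fin 2) (Fin n → Fin 2) ℂ) :
    ∑ j ∈ s, w j • gadcPow γ ν n (ρ j) = gadcPow γ ν n (∑ j ∈ s, w j • ρ j) := by
  ext x y
  simp only [Matrix.sum_apply, Matrix.smul_apply, smul_eq_mul, gadcPow, Finset.mul_sum,
    Finset.sum_mul, mul_assoc]
  rw [Finset.sum_comm]
  exact Finset.sum_congr rfl fun u _ => Finset.sum_comm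

end VAgent.P358
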