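import Vale.Agent.P358.Spectral
import Vale.Agent.P358.Main.Channel

/-!
# P358: entropy of tensor products and the subadditivity bound
-/

namespace VAgent.P358

open Matrix
open scoped ComplexOrder

variable {n : ℕ}

/-- Diagonalisation of a Hermitian matrix in the form used by `nent_eq_of_diag`. -/
theorem exists_diag {m : Type*} [Fintype m] [DecidableEq m] {M : Matrix m m ℂ}
    (hM : M.IsHermitian) :
    ∃ U : Matrix m m ℂ, U * Uᴴ = 1 ∧
      M = U * Matrix.diagonal (fun k => (hM.eigenvalues k : ℂ)) * Uᴴ := by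
  refine ⟨(hM.eigenvectorUnitary : Matrix m m ℂ), ?_, ?_⟩
  · exact Unitary.mul_star_self_of_mem hM.eigenvectorUnitary.2
  · conv_lhs => rw [hM.spectral_theorem]
    rfl

theorem nent_diagonal {m : Type*} [Fintype m] [DecidableEq m] (d : m → ℝ) :
    nent (Matrix.diagonal fun i => (d i : ℂ)) = ∑ i, Real.negMulLog (d i) := by
  simpa using nent_eq_of_diag (1 : Matrix m m ℂ) (by simp) d

/-- The entropy is at most the entropy of the diagonal. -/
theorem nent_le_sum_diag {m : Type*} [Fintype m] [DecidableEq m] {M : Matrix m m ℂ}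
    (hM : M.PosSemidef) : nent M ≤ ∑ x, Real.negMulLog ((M x x).re) := by
  obtain ⟨U, hU, hMU⟩ := exists_diag hM.1
  set l := hM.1.eigenvalues with hl
  have hU' : Uᴴ * U = 1 := mul_eq_one_comm.1 hU
  have hw : ∀ x k, U x k * star (U x k) = ((‖U x k‖ ^ 2 : ℝ) : ℂ) := fun x k => by
    rw [Complex.ofReal_pow, ← Complex.mul_conj']; rfl
  have hrow : ∀ x, ∑ k, ‖U x k‖ ^ 2 = 1 := fun x => by
    have := congrFun (congrFun hU x) x
    simp only [Matrix.mul_apply, Matrix.conjTranspose_apply, Matrix.one_apply_eq, hw] at this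
    exact_mod_cast this
  have hcol : ∀ k, ∑ x, ‖U x k‖ ^ 2 = 1 := fun k => by
    have := congrFun (congrFun hU' k) k
    simp only [Matrix.mul_apply, Matrix.conjTranspose_apply, Matrix.one_apply_eq,
      mul_comm (star _), hw] at this
    exact_mod_cast this
  have hd : ∀ x, (M x x).re = ∑ k, ‖U x k‖ ^ 2 * l k := fun x => by
    conv_lhs => rw [hMU]
    simp only [Matrix.mul_apply, Matrix.diagonal_apply, mul_ite, mul_zero, Finset.sum_ite_eq',
      Finset.mem_univ, if_true, Matrix.conjTranspose_apply, mul_right_comm _ _ (star _), hw,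
      ← Complex.ofReal_mul, Complex.re_sum, Complex.ofReal_re]
  rw [nent, dif_pos hM.1]
  calc ∑ k, Real.negMulLog (l k) = ∑ x, ∑ k, ‖U x k‖ ^ 2 * Real.negMulLog (l k) := by
        rw [Finset.sum_comm]
        simp [← Finset.sum_mul, hcol]
    _ ≤ ∑ x, Real.negMulLog ((M x x).re) := by
        refine Finset.sum_le_sum fun x _ => ?_
        rw [hd x]
        have := Real.concaveOn_negMulLog.le_map_sum (t := Finset.univ)
          (w := fun k => ‖U x k‖ ^ 2) (p := l) (fun k _ => by positivity) (hrow x)
          (fun k _ => hM.eigenvalues_nonneg k)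
        simpa [smul_eq_mul] using this

/-- Classical Gibbs inequality. -/
theorem negMulLog_le_cross {p q : ℝ} (hp : 0 ≤ p) (hq : 0 ≤ q) (h0 : q = 0 → p = 0) :
    Real.negMulLog p ≤ -p * Real.log q + q - p := by
  rcases hp.eq_or_lt with rfl | hp
  · simp [hq]
  · have hq' : 0 < q := lt_of_le_of_ne hq fun h => hp.ne' (h0 h.symm)
    have := mul_le_mul_of_nonneg_left (Real.log_le_sub_one_of_pos (div_pos hq' hp)) hp.le
    rw [Real.log_div hq'.ne' hp.ne', mul_sub, mul_sub, mul_div_cancel₀ _ hp.ne', mul_one] at this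
    rw [Real.negMulLog]
    linarith

/-- Subadditivity: the entropy is at most the sum of the binary entropies of the populations. -/
theorem nent_le_sum_binEntropy {σ : Matrix (Fin n → Fin 2) (Fin n → Fin 2) ℂ} (hσ : σ.PosSemidef)
    (htr : σ.trace.re = 1) : nent σ ≤ ∑ i, Real.binEntropy (pop σ i) := by
  set P := fun x => (σ x x).re with hP
  have hP0 : ∀ x, 0 ≤ P x := fun x => (Complex.nonneg_iff.1 (hσ.diag_nonneg (i := x))).1
  have hPs : ∑ x, P x = 1 := by
    rw [← htr]; simp [hP, Matrix.trace, Matrix.diag, Complex.re_sum]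
  set mg := fun i a => ∑ x, if x i = a then P x else 0 with hmg
  have hm0 : ∀ i a, 0 ≤ mg i a := fun i a => Finset.sum_nonneg fun x _ => by
    split_ifs
    · exact hP0 x
    · exact le_rfl
  have hms : ∀ i, ∑ a, mg i a = 1 := fun i => by
    simp only [hmg]
    rw [Finset.sum_comm]
    simpa using hPs
  have hle : ∀ x i, P x ≤ mg i (x i) := fun x i => by
    refine le_trans (le_of_eq (if_pos rfl).symm) (Finset.single_le_sum
      (f := fun y => if y i = x i then P y else 0) (fun y _ => ?_) (Finset.mem_univ x))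
    split_ifs
    · exact hP0 y
    · exact le_rfl
  set Q := fun x : Fin n → Fin 2 => ∏ i, mg i (x i) with hQ
  have hQ1 : ∑ x, Q x = 1 := by
    simp only [hQ]
    rw [← Fintype.prod_sum]
    simp [hms]
  have hcross : ∀ x, -P x * Real.log (Q x) = ∑ i, -P x * Real.log (mg i (x i)) := fun x => by
    rcases (hP0 x).eq_or_lt with h | h
    · simp [← h]
    · simp only [hQ]
      rw [Real.log_prod (fun i _ => (lt_of_lt_of_le h (hle x i)).ne'), Finset.mul_sum]
  have hentry : ∀ i, ∑ x, -P x * Real.log (mg i (x i)) = Real.binEntropy (pop σ i) := fun i => by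
    have e : ∀ a, ∑ x, (if x i = a then -P x * Real.log (mg i a) else 0)
        = Real.negMulLog (mg i a) := fun a => by
      have : ∀ x, (if x i = a then -P x * Real.log (mg i a) else 0)
          = (if x i = a then P x else 0) * -Real.log (mg i a) := fun x => by split_ifs <;> ring
      simp only [this, ← Finset.sum_mul]
      rw [Real.negMulLog]
      simp only [hmg]
      ring
    calc ∑ x, -P x * Real.log (mg i (x i))
        = ∑ x, ∑ a, (if x i = a then -P x * Real.log (mg i a) else 0) :=
          Finset.sum_congr rfl fun x _ => by simp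
      _ = ∑ a, Real.negMulLog (mg i a) := by rw [Finset.sum_comm]; simp only [e]
      _ = _ := by
          have h1 : mg i 1 = pop σ i := rfl
          have h0 : mg i 0 = 1 - pop σ i := by
            have := hms i
            rw [Fin.sum_univ_two] at this
            linarith
          rw [Fin.sum_univ_two, h0, h1, Real.binEntropy_eq_negMulLog_add_negMulLog_one_sub]
          ring
  calc nent σ ≤ ∑ x, Real.negMulLog (P x) := nent_le_sum_diag hσ
    _ ≤ ∑ x, (-P x * Real.log (Q x) + Q x - P x) := Finset.sum_le_sum fun x _ =>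
        negMulLog_le_cross (hP0 x) (Finset.prod_nonneg fun i _ => hm0 i _) fun h0 => by
          obtain ⟨i, -, hi⟩ := Finset.prod_eq_zero_iff.1 h0
          exact le_antisymm ((hle x i).trans hi.le) (hP0 x)
    _ = ∑ i, Real.binEntropy (pop σ i) := by
        rw [Finset.sum_sub_distrib, Finset.sum_add_distrib, hQ1, hPs]
        simp only [hcross]
        rw [Finset.sum_comm, add_sub_cancel_right]
        exact Finset.sum_congr rfl fun i _ => hentry i

/-- Tensor product of one-qubit matrices. -/
def tens (M : Fin n → Matrix (Fin 2) (Fin 2) ℂ) : Matrix (Fin n → Fin 2) (Fin n → Fin 2) ℂ :=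
  fun x y => ∏ i, M i (x i) (y i)

theorem tens_mul (A B : Fin n → Matrix (Fin 2) (Fin 2) ℂ) :
    tens A * tens B = tens fun i => A i * B i := by
  ext x y
  simp only [Matrix.mul_apply, tens, Fintype.prod_sum, Finset.prod_mul_distrib]

theorem tens_conjTranspose (A : Fin n → Matrix (Fin 2) (Fin 2) ℂ) :
    (tens A)ᴴ = tens fun i => (A i)ᴴ := by
  ext x y
  simp [tens, Matrix.conjTranspose_apply]

theorem tens_diagonal (d : Fin n → Fin 2 → ℂ) :
    tens (fun i => Matrix.diagonal (d i)) = Matrix.diagonal fun x => ∏ i, d i (x i) := by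
  ext x y
  rcases eq_or_ne x y with rfl | h
  · simp [tens]
  · obtain ⟨i, hi⟩ := Function.ne_iff.1 h
    rw [Matrix.diagonal_apply_ne _ h]
    exact Finset.prod_eq_zero (Finset.mem_univ i) (by simp [hi])

theorem tens_one : tens (fun _ : Fin n => (1 : Matrix (Fin 2) (Fin 2) ℂ)) = 1 := by
  have := tens_diagonal (fun (_ : Fin n) (_ : Fin 2) => (1 : ℂ))
  simpa [Matrix.diagonal_one] using this

theorem trace_tens (M : Fin n → Matrix (Fin 2) (Fin 2) ℂ) :
    (tens M).trace = ∏ i, (M i).trace := by
  simp only [Matrix.trace, Matrix.diag, tens, Fintype.prod_sum]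

theorem gadcPow_tens (γ ν : ℝ) (M : Fin n → Matrix (Fin 2) (Fin 2) ℂ) :
    gadcPow γ ν n (tens M) = tens fun i => gadc γ ν (M i) := by
  ext x y
  simp only [gadcPow, gadc, tens, Fintype.prod_sum, Finset.prod_mul_distrib]

theorem negMulLog_prod {J : Type*} [DecidableEq J] (s : Finset J) (d : J → ℝ) :
    Real.negMulLog (∏ i ∈ s, d i)
      = ∑ i ∈ s, Real.negMulLog (d i) * ∏ j ∈ s.erase i, d j := by
  induction s using Finset.induction with
  | empty => simp
  | @insert a s ha ih =>
    rw [Finset.prod_insert ha, Real.negMulLog_mul, ih, Finset.sum_insert ha,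
      Finset.erase_insert ha, Finset.mul_sum]
    congr 1
    · ring
    refine Finset.sum_congr rfl fun i hi => ?_
    have hia : a ≠ i := fun h => ha (h ▸ hi)
    rw [Finset.erase_insert_of_ne hia, Finset.prod_insert (by simp [ha])]
    ring

theorem sum_negMulLog_prod (d : Fin n → Fin 2 → ℝ) (hd : ∀ i, ∑ a, d i a = 1) :
    ∑ x : Fin n → Fin 2, Real.negMulLog (∏ i, d i (x i))
      = ∑ i, ∑ a, Real.negMulLog (d i a) := by
  simp only [negMulLog_prod]
  rw [Finset.sum_comm]
  refine Finset.sum_congr rfl fun i _ => ?_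
  have h : ∀ x : Fin n → Fin 2, Real.negMulLog (d i (x i)) * ∏ j ∈ Finset.univ.erase i, d j (x j)
      = ∏ j, (if j = i then Real.negMulLog (d j (x j)) else d j (x j)) := fun x => by
    rw [← Finset.mul_prod_erase _ _ (Finset.mem_univ i), if_pos rfl]
    congr 1
    exact Finset.prod_congr rfl fun j hj => (if_neg (Finset.ne_of_mem_erase hj)).symm
  simp only [h]
  rw [← Fintype.prod_sum (fun j a => if j = i then Real.negMulLog (d j a) else d j a)]
  rw [Finset.prod_eq_single i]
  · simp
  · intro j _ hj; simp [hj, hd]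
  · simp

/-- Additivity of the entropy on tensor products. -/
theorem nent_tens (M : Fin n → Matrix (Fin 2) (Fin 2) ℂ) (hM : ∀ i, (M i).IsHermitian)
    (htr : ∀ i, (M i).trace = 1) : nent (tens M) = ∑ i, nent (M i) := by
  choose U hU hMU using fun i => exists_diag (hM i)
  set d := fun i a => (hM i).eigenvalues a with hd
  have hd1 : ∀ i, ∑ a, d i a = 1 := fun i => by
    have h := (hM i).trace_eq_sum_eigenvalues
    rw [htr i] at h
    simp only [hd]
    simpa using (congrArg Complex.re h).symm
  have e : tens M = tens U * Matrix.diagonal (fun x => ((∏ i, d i (x i) : ℝ) : ℂ)) * (tens U)ᴴ := by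
    simp only [Complex.ofReal_prod]
    rw [← tens_diagonal (fun i a => (d i a : ℂ)), tens_conjTranspose, tens_mul, tens_mul]
    congr 1
    funext i
    exact hMU i
  have hU1 : tens U * (tens U)ᴴ = 1 := by
    rw [tens_conjTranspose, tens_mul]
    simp only [hU, tens_one]
  rw [e, nent_eq_of_diag _ hU1, sum_negMulLog_prod d hd1]
  refine Finset.sum_congr rfl fun i _ => ?_
  rw [nent, dif_pos (hM i)]

/-- Entropy of a one-qubit matrix of trace one. -/
theorem nent_qubit {M : Matrix (Fin 2) (Fin 2) ℂ} (hM : M.IsHermitian) (htr : M.trace = 1)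
    {D : ℝ} (hdet : M.det = (D : ℂ)) :
    nent M = Real.binEntropy ((1 - Real.sqrt (1 - 4 * D)) / 2) := by
  have hs := hM.trace_eq_sum_eigenvalues
  rw [htr, Fin.sum_univ_two] at hs
  have hp := hM.det_eq_prod_eigenvalues
  rw [hdet, Fin.prod_univ_two] at hp
  set a := hM.eigenvalues 0 with ha
  set b := hM.eigenvalues 1 with hb
  have hab : b = 1 - a := by
    have : (1 : ℝ) = a + b := by simpa using congrArg Complex.re hs
    linarith
  have hD : D = a * b := by simpa using congrArg Complex.re hp
  rw [nent, dif_pos hM, Fin.sum_univ_two, ← ha, ← hb, hab,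
    ← Real.binEntropy_eq_negMulLog_add_negMulLog_one_sub,
    show 1 - 4 * D = (1 - 2 * a) ^ 2 by rw [hD, hab]; ring, Real.sqrt_sq_eq_abs]
  rcases le_total 0 (1 - 2 * a) with h | h
  · rw [abs_of_nonneg h]; ring_nf
  · rw [abs_of_nonpos h, show (1 - -(1 - 2 * a)) / 2 = 1 - a by ring, Real.binEntropy_one_sub]

end VAgent.P358
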